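import Mathlib
set_option linter.all false
/-!
# P264 / Cal : smooth parametric integrals over closed convex sets, Hadamard division
-/
open Set MeasureTheory Filter Topology Function
open scoped ContDiff

namespace P264.Cal

section Param
variable {E : Type} [NormedAddCommGroup E] [NormedSpace ℝ E]

/-- Differentiation under `∫₀¹` within a compact convex set. -/
theorem hasFDerivWithinAt_integral {F : Type} [NormedAddCommGroup F] [NormedSpace ℝ F]
    [CompleteSpace F] {S : Set E} (hS : IsCompact S) (hc : Convex ℝ S)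
    {f : E → ℝ → F} {f' : E → ℝ → (E →L[ℝ] F)} {a b : ℝ} (hab : a ≤ b)
    (hf : ContinuousOn (fun q : E × ℝ => f q.1 q.2) (S ×ˢ Icc a b))
    (hf' : ContinuousOn (fun q : E × ℝ => f' q.1 q.2) (S ×ˢ Icc a b))
    (hd : ∀ p ∈ S, ∀ s ∈ Icc a b, HasFDerivWithinAt (fun q => f q s) (f' p s) S p)
    {p : E} (hp : p ∈ S) :
    HasFDerivWithinAt (fun q => ∫ s in a..b, f q s) (∫ s in a..b, f' p s) S p := by
  have hK : IsCompact (S ×ˢ Icc a b) := hS.prod isCompact_Icc
  have huc : UniformContinuousOn (fun q : E × ℝ => f' q.1 q.2) (S ×ˢ Icc a b) :=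
    hK.uniformContinuousOn_of_continuous hf'
  have hsec : ∀ q ∈ S, ContinuousOn (fun s => f q s) (Icc a b) := by
    intro q hq
    exact hf.comp (f := fun s : ℝ => ((q, s) : E × ℝ)) (by fun_prop) (fun s hs => ⟨hq, hs⟩)
  have hsec' : ∀ q ∈ S, ContinuousOn (fun s => f' q s) (Icc a b) := by
    intro q hq
    exact hf'.comp (f := fun s : ℝ => ((q, s) : E × ℝ)) (by fun_prop) (fun s hs => ⟨hq, hs⟩)
  have hint : ∀ q ∈ S, IntervalIntegrable (fun s => f q s) volume a b := by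
    intro q hq
    apply ContinuousOn.intervalIntegrable
    rw [uIcc_of_le hab]; exact hsec q hq
  have hint' : ∀ q ∈ S, IntervalIntegrable (fun s => f' q s) volume a b := by
    intro q hq
    apply ContinuousOn.intervalIntegrable
    rw [uIcc_of_le hab]; exact hsec' q hq
  rw [hasFDerivWithinAt_iff_isLittleO, Asymptotics.isLittleO_iff]
  intro c hc0
  set ε : ℝ := c / (b - a + 1) with hε
  have hba : 0 < b - a + 1 := by linarith
  have hε0 : 0 < ε := div_pos hc0 hba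
  rw [Metric.uniformContinuousOn_iff] at huc
  obtain ⟨δ, hδ, hδ'⟩ := huc ε hε0
  have hball : S ∩ Metric.ball p δ ∈ 𝓝[S] p :=
    inter_mem self_mem_nhdsWithin (mem_nhdsWithin_of_mem_nhds (Metric.ball_mem_nhds p hδ))
  filter_upwards [hball] with q hq
  have hconv : Convex ℝ (S ∩ Metric.ball p δ) := hc.inter (convex_ball p δ)
  have hpm : p ∈ S ∩ Metric.ball p δ := ⟨hp, Metric.mem_ball_self hδ⟩
  have key : ∀ s ∈ Icc a b, ‖f q s - f p s - f' p s (q - p)‖ ≤ ε * ‖q - p‖ := by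
    intro s hs
    apply hconv.norm_image_sub_le_of_norm_hasFDerivWithin_le' (f := fun q => f q s)
      (f' := fun q => f' q s) (φ := f' p s) (C := ε)
    · intro r hr
      exact (hd r hr.1 s hs).mono inter_subset_left
    · intro r hr
      have := hδ' (r, s) ⟨hr.1, hs⟩ (p, s) ⟨hp, hs⟩ (by
        rw [Prod.dist_eq]
        simp only [dist_self]
        have h1 : dist r p < δ := hr.2
        exact max_lt h1 hδ)
      rw [dist_eq_norm] at this
      exact this.le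
    · exact hpm
    · exact hq
  have e1 : (∫ s in a..b, f' p s) (q - p) = ∫ s in a..b, f' p s (q - p) := by
    rw [ContinuousLinearMap.intervalIntegral_apply (hint' p hp)]
  have hintp : IntervalIntegrable (fun s => f' p s (q - p)) volume a b := by
    apply ContinuousOn.intervalIntegrable
    rw [uIcc_of_le hab]
    exact (hsec' p hp).clm_apply continuousOn_const
  rw [e1, ← intervalIntegral.integral_sub (hint q hq.1) (hint p hp),
    ← intervalIntegral.integral_sub ((hint q hq.1).sub (hint p hp)) hintp]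
  calc ‖∫ s in a..b, (f q s - f p s - f' p s (q - p))‖ ≤ (ε * ‖q - p‖) * |b - a| := by
        apply intervalIntegral.norm_integral_le_of_norm_le_const
        intro s hs
        rw [uIoc_of_le hab] at hs
        exact key s ⟨hs.1.le, hs.2⟩
    _ ≤ c * ‖q - p‖ := by
        rw [abs_of_nonneg (by linarith), hε]
        have h2 : (b - a) / (b - a + 1) ≤ 1 := by
          rw [div_le_one hba]; linarith
        have h3 : c / (b - a + 1) * ‖q - p‖ * (b - a) = c * ‖q - p‖ * ((b - a) / (b - a + 1)) := by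
          field_simp
        rw [h3]
        have h4 : 0 ≤ c * ‖q - p‖ := by positivity
        nlinarith

/-- Continuity of parametric integrals on a compact set. -/
theorem continuousOn_integral {F : Type} [NormedAddCommGroup F] [NormedSpace ℝ F]
    {S : Set E} (hS : IsCompact S) {f : E → ℝ → F} {a b : ℝ} (hab : a ≤ b)
    (hf : ContinuousOn (fun q : E × ℝ => f q.1 q.2) (S ×ˢ Icc a b)) :
    ContinuousOn (fun q => ∫ s in a..b, f q s) S := by
  have hK : IsCompact (S ×ˢ Icc a b) := hS.prod isCompact_Icc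
  have huc : UniformContinuousOn (fun q : E × ℝ => f q.1 q.2) (S ×ˢ Icc a b) :=
    hK.uniformContinuousOn_of_continuous hf
  have hsec : ∀ q ∈ S, ContinuousOn (fun s => f q s) (Icc a b) := by
    intro q hq
    exact hf.comp (f := fun s : ℝ => ((q, s) : E × ℝ)) (by fun_prop) (fun s hs => ⟨hq, hs⟩)
  have hint : ∀ q ∈ S, IntervalIntegrable (fun s => f q s) volume a b := by
    intro q hq
    apply ContinuousOn.intervalIntegrable
    rw [uIcc_of_le hab]; exact hsec q hq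
  rw [Metric.continuousOn_iff]
  intro p hp c hc0
  set ε : ℝ := c / (b - a + 1) with hε
  have hba : 0 < b - a + 1 := by linarith
  have hε0 : 0 < ε := div_pos hc0 hba
  rw [Metric.uniformContinuousOn_iff] at huc
  obtain ⟨δ, hδ, hδ'⟩ := huc ε hε0
  refine ⟨δ, hδ, fun q hq hqp => ?_⟩
  rw [dist_eq_norm, ← intervalIntegral.integral_sub (hint q hq) (hint p hp)]
  calc ‖∫ s in a..b, (f q s - f p s)‖ ≤ ε * |b - a| := by
        apply intervalIntegral.norm_integral_le_of_norm_le_const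
        intro s hs
        rw [uIoc_of_le hab] at hs
        have := hδ' (q, s) ⟨hq, hs.1.le, hs.2⟩ (p, s) ⟨hp, hs.1.le, hs.2⟩ (by
          rw [Prod.dist_eq]
          simp only [dist_self]
          exact max_lt hqp hδ)
        rw [dist_eq_norm] at this
        exact this.le
    _ < c := by
        rw [abs_of_nonneg (by linarith), hε]
        have h3 : c / (b - a + 1) * (b - a) = c - c / (b - a + 1) := by
          field_simp; ring
        rw [h3]; linarith

theorem contDiffOn_integral_nat {S : Set E} (hS : IsCompact S) (hc : Convex ℝ S)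
    (hu : UniqueDiffOn ℝ S) {a b : ℝ} (hab : a < b) (n : ℕ) :
    ∀ (F : Type) [NormedAddCommGroup F] [NormedSpace ℝ F] [CompleteSpace F] (f : E × ℝ → F),
      ContDiffOn ℝ n f (S ×ˢ Icc a b) → ContDiffOn ℝ n (fun p => ∫ s in a..b, f (p, s)) S := by
  have huK : UniqueDiffOn ℝ (S ×ˢ Icc a b) := hu.prod (uniqueDiffOn_Icc hab)
  induction n with
  | zero =>
    intro F _ _ _ f hf
    simp only [CharP.cast_eq_zero, contDiffOn_zero] at hf ⊢
    exact continuousOn_integral hS hab.le (f := fun p s => f (p, s)) hf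
  | succ n ih =>
    intro F _ _ _ f hf
    have hf' : ContDiffOn ℝ n (fderivWithin ℝ f (S ×ˢ Icc a b)) (S ×ˢ Icc a b) :=
      hf.fderivWithin huK (by norm_cast)
    set f' : E × ℝ → (E →L[ℝ] F) := fun q =>
      (fderivWithin ℝ f (S ×ˢ Icc a b) q).comp (ContinuousLinearMap.inl ℝ E ℝ) with hf'def
    have hf'c : ContDiffOn ℝ n f' (S ×ˢ Icc a b) := by
      apply hf'.clm_comp contDiffOn_const
    have hdf : ∀ p ∈ S, ∀ s ∈ Icc a b, HasFDerivWithinAt (fun q => f (q, s)) (f' (p, s)) S p := by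
      intro p hp s hs
      have h1 : HasFDerivWithinAt f (fderivWithin ℝ f (S ×ˢ Icc a b) (p, s)) (S ×ˢ Icc a b) (p, s) :=
        ((hf.differentiableOn (by simp)) (p, s) ⟨hp, hs⟩).hasFDerivWithinAt
      have h2 : HasFDerivWithinAt (fun q : E => ((q, s) : E × ℝ)) (ContinuousLinearMap.inl ℝ E ℝ) S p :=
        (hasFDerivAt_prodMk_left p s).hasFDerivWithinAt
      exact HasFDerivWithinAt.comp p h1 h2 (fun q hq => ⟨hq, hs⟩)
    have hder := fun p (hp : p ∈ S) => hasFDerivWithinAt_integral hS hc (f := fun p s => f (p, s))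
      (f' := fun p s => f' (p, s)) hab.le hf.continuousOn hf'c.continuousOn hdf hp
    have := ih (E →L[ℝ] F) f' hf'c
    have hcast : ((n + 1 : ℕ) : WithTop ℕ∞) = (n : WithTop ℕ∞) + 1 := by norm_cast
    rw [hcast, contDiffOn_succ_iff_hasFDerivWithinAt_of_uniqueDiffOn hu]
    refine ⟨by simp, fun p => ∫ s in a..b, f' (p, s), this, hder⟩

/-- Smooth parametric integrals over a compact convex set, closed up to the boundary. -/
theorem contDiffOn_integral {F : Type} [NormedAddCommGroup F] [NormedSpace ℝ F] [CompleteSpace F]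
    {S : Set E} (hS : IsCompact S) (hc : Convex ℝ S)
    (hu : UniqueDiffOn ℝ S) {a b : ℝ} (hab : a < b) {f : E × ℝ → F}
    (hf : ContDiffOn ℝ ∞ f (S ×ˢ Icc a b)) :
    ContDiffOn ℝ ∞ (fun p => ∫ s in a..b, f (p, s)) S := by
  rw [contDiffOn_infty]
  intro n
  exact contDiffOn_integral_nat hS hc hu hab n F f (hf.of_le (by exact_mod_cast le_top))

end Param

section Box
variable {a b c d : ℝ}

/-- `∂_t f` on the closed box `K` (`p = (t,x)`), one-sided at the boundary. -/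
noncomputable def pdt (K : Set (ℝ × ℝ)) (f : ℝ × ℝ → ℝ) (p : ℝ × ℝ) : ℝ :=
  fderivWithin ℝ f K p (1, 0)

/-- `∂_x f` on the closed box `K` (`p = (t,x)`), one-sided at the boundary. -/
noncomputable def pdx (K : Set (ℝ × ℝ)) (f : ℝ × ℝ → ℝ) (p : ℝ × ℝ) : ℝ :=
  fderivWithin ℝ f K p (0, 1)

theorem uniqueDiffOn_box (hab : a < b) (hcd : c < d) :
    UniqueDiffOn ℝ (Icc a b ×ˢ Icc c d) :=
  (uniqueDiffOn_Icc hab).prod (uniqueDiffOn_Icc hcd)

theorem contDiffOn_pdt (hab : a < b) (hcd : c < d) {f : ℝ × ℝ → ℝ}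
    (hf : ContDiffOn ℝ ∞ f (Icc a b ×ˢ Icc c d)) :
    ContDiffOn ℝ ∞ (pdt (Icc a b ×ˢ Icc c d) f) (Icc a b ×ˢ Icc c d) := by
  have h := hf.fderivWithin (m := ∞) (uniqueDiffOn_box hab hcd) (by simp)
  exact h.clm_apply contDiffOn_const

theorem contDiffOn_pdx (hab : a < b) (hcd : c < d) {f : ℝ × ℝ → ℝ}
    (hf : ContDiffOn ℝ ∞ f (Icc a b ×ˢ Icc c d)) :
    ContDiffOn ℝ ∞ (pdx (Icc a b ×ˢ Icc c d) f) (Icc a b ×ˢ Icc c d) := by
  have h := hf.fderivWithin (m := ∞) (uniqueDiffOn_box hab hcd) (by simp)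
  exact h.clm_apply contDiffOn_const

theorem hasFDerivWithinAt_box {f : ℝ × ℝ → ℝ}
    (hf : ContDiffOn ℝ ∞ f (Icc a b ×ˢ Icc c d)) {p : ℝ × ℝ} (hp : p ∈ Icc a b ×ˢ Icc c d) :
    HasFDerivWithinAt f (fderivWithin ℝ f (Icc a b ×ˢ Icc c d) p) (Icc a b ×ˢ Icc c d) p :=
  ((hf.differentiableOn (by simp)) p hp).hasFDerivWithinAt

theorem hasDerivWithinAt_pdx {f : ℝ × ℝ → ℝ}
    (hf : ContDiffOn ℝ ∞ f (Icc a b ×ˢ Icc c d)) {t x : ℝ} (ht : t ∈ Icc a b) (hx : x ∈ Icc c d) :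
    HasDerivWithinAt (fun y => f (t, y)) (pdx (Icc a b ×ˢ Icc c d) f (t, x)) (Icc c d) x := by
  have h1 := hasFDerivWithinAt_box hf (p := (t, x)) ⟨ht, hx⟩
  have h2 : HasDerivWithinAt (fun y : ℝ => ((t, y) : ℝ × ℝ)) (0, 1) (Icc c d) x :=
    ((hasDerivAt_const x t).prodMk (hasDerivAt_id x)).hasDerivWithinAt
  exact HasFDerivWithinAt.comp_hasDerivWithinAt x h1 h2 (fun y hy => ⟨ht, hy⟩)

theorem hasDerivWithinAt_pdt {f : ℝ × ℝ → ℝ}
    (hf : ContDiffOn ℝ ∞ f (Icc a b ×ˢ Icc c d)) {t x : ℝ} (ht : t ∈ Icc a b) (hx : x ∈ Icc c d) :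
    HasDerivWithinAt (fun s => f (s, x)) (pdt (Icc a b ×ˢ Icc c d) f (t, x)) (Icc a b) t := by
  have h1 := hasFDerivWithinAt_box hf (p := (t, x)) ⟨ht, hx⟩
  have h2 : HasDerivWithinAt (fun s : ℝ => ((s, x) : ℝ × ℝ)) (1, 0) (Icc a b) t :=
    ((hasDerivAt_id t).prodMk (hasDerivAt_const t x)).hasDerivWithinAt
  exact HasFDerivWithinAt.comp_hasDerivWithinAt t h1 h2 (fun y hy => ⟨hy, hx⟩)

theorem hasDerivAt_pdx {f : ℝ × ℝ → ℝ}
    (hf : ContDiffOn ℝ ∞ f (Icc a b ×ˢ Icc c d)) {t x : ℝ} (ht : t ∈ Icc a b) (hx : x ∈ Ioo c d) :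
    HasDerivAt (fun y => f (t, y)) (pdx (Icc a b ×ˢ Icc c d) f (t, x)) x :=
  (hasDerivWithinAt_pdx hf ht (Ioo_subset_Icc_self hx)).hasDerivAt (Icc_mem_nhds hx.1 hx.2)

theorem hasDerivAt_pdt {f : ℝ × ℝ → ℝ}
    (hf : ContDiffOn ℝ ∞ f (Icc a b ×ˢ Icc c d)) {t x : ℝ} (ht : t ∈ Ioo a b) (hx : x ∈ Icc c d) :
    HasDerivAt (fun s => f (s, x)) (pdt (Icc a b ×ˢ Icc c d) f (t, x)) t :=
  (hasDerivWithinAt_pdt hf (Ioo_subset_Icc_self ht) hx).hasDerivAt (Icc_mem_nhds ht.1 ht.2)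

theorem pdx_eq {f : ℝ × ℝ → ℝ} (hcd : c < d)
    (hf : ContDiffOn ℝ ∞ f (Icc a b ×ˢ Icc c d)) {t x g : ℝ} (ht : t ∈ Icc a b) (hx : x ∈ Icc c d)
    (hg : HasDerivWithinAt (fun y => f (t, y)) g (Icc c d) x) :
    pdx (Icc a b ×ˢ Icc c d) f (t, x) = g :=
  (uniqueDiffOn_Icc hcd x hx).eq_deriv _ (hasDerivWithinAt_pdx hf ht hx) hg

theorem pdt_eq {f : ℝ × ℝ → ℝ} (hab : a < b)
    (hf : ContDiffOn ℝ ∞ f (Icc a b ×ˢ Icc c d)) {t x g : ℝ} (ht : t ∈ Icc a b) (hx : x ∈ Icc c d)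
    (hg : HasDerivWithinAt (fun s => f (s, x)) g (Icc a b) t) :
    pdt (Icc a b ×ˢ Icc c d) f (t, x) = g :=
  (uniqueDiffOn_Icc hab t ht).eq_deriv _ (hasDerivWithinAt_pdt hf ht hx) hg

theorem pdx_congr {f g : ℝ × ℝ → ℝ} (h : ∀ p ∈ Icc a b ×ˢ Icc c d, f p = g p) {p : ℝ × ℝ}
    (hp : p ∈ Icc a b ×ˢ Icc c d) :
    pdx (Icc a b ×ˢ Icc c d) f p = pdx (Icc a b ×ˢ Icc c d) g p := by
  unfold pdx
  rw [fderivWithin_congr (fun q hq => h q hq) (h p hp)]

theorem pdt_congr {f g : ℝ × ℝ → ℝ} (h : ∀ p ∈ Icc a b ×ˢ Icc c d, f p = g p) {p : ℝ × ℝ}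
    (hp : p ∈ Icc a b ×ˢ Icc c d) :
    pdt (Icc a b ×ˢ Icc c d) f p = pdt (Icc a b ×ˢ Icc c d) g p := by
  unfold pdt
  rw [fderivWithin_congr (fun q hq => h q hq) (h p hp)]

theorem mem_closure_interior_box (hab : a < b) (hcd : c < d) {p : ℝ × ℝ}
    (hp : p ∈ Icc a b ×ˢ Icc c d) : p ∈ closure (interior (Icc a b ×ˢ Icc c d)) := by
  rw [interior_prod_eq, closure_prod_eq, interior_Icc, interior_Icc, closure_Ioo hab.ne,
    closure_Ioo hcd.ne]
  exact hp

/-- Mixed derivatives commute on the closed box. -/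
theorem pdx_pdt_comm (hab : a < b) (hcd : c < d) {f : ℝ × ℝ → ℝ}
    (hf : ContDiffOn ℝ ∞ f (Icc a b ×ˢ Icc c d)) {p : ℝ × ℝ} (hp : p ∈ Icc a b ×ˢ Icc c d) :
    pdx (Icc a b ×ˢ Icc c d) (pdt (Icc a b ×ˢ Icc c d) f) p =
      pdt (Icc a b ×ˢ Icc c d) (pdx (Icc a b ×ˢ Icc c d) f) p := by
  set K := Icc a b ×ˢ Icc c d with hK
  have hu := uniqueDiffOn_box hab hcd
  have hsym := (hf p hp).isSymmSndFDerivWithinAt (by
      rw [minSmoothness_of_isRCLikeNormedField]
      have h2 : ((2 : ℕ∞) : WithTop ℕ∞) ≤ ((⊤ : ℕ∞) : WithTop ℕ∞) := WithTop.coe_le_coe.2 le_top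
      exact h2) hu
    (mem_closure_interior_box hab hcd hp) hp
  have hdf : DifferentiableWithinAt ℝ (fderivWithin ℝ f K) K p :=
    ((hf.fderivWithin (m := ∞) hu (by simp)).differentiableOn (by simp)) p hp
  have e : ∀ v : ℝ × ℝ, ∀ w : ℝ × ℝ, fderivWithin ℝ (fun q => fderivWithin ℝ f K q v) K p w =
      fderivWithin ℝ (fderivWithin ℝ f K) K p w v := by
    intro v w
    have h1 := hdf.hasFDerivWithinAt.clm_apply (hasFDerivWithinAt_const v p K)
    rw [h1.fderivWithin (hu p hp)]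
    simp
  change fderivWithin ℝ (fun q => fderivWithin ℝ f K q (1, 0)) K p (0, 1) =
    fderivWithin ℝ (fun q => fderivWithin ℝ f K q (0, 1)) K p (1, 0)
  rw [e, e]
  exact hsym _ _

/-- `d/dt ∫_c^d f(t,x) dx = ∫_c^d ∂_t f(t,x) dx`, up to the ends of the time interval. -/
theorem hasDerivWithinAt_integral (hcd : c < d) {f : ℝ × ℝ → ℝ}
    (hf : ContDiffOn ℝ ∞ f (Icc a b ×ˢ Icc c d)) (hab : a < b) {t : ℝ} (ht : t ∈ Icc a b) :
    HasDerivWithinAt (fun s => ∫ x in c..d, f (s, x))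
      (∫ x in c..d, pdt (Icc a b ×ˢ Icc c d) f (t, x)) (Icc a b) t := by
  have h := hasFDerivWithinAt_integral (F := ℝ) (S := Icc a b) isCompact_Icc (convex_Icc a b)
    (f := fun s x => f (s, x))
    (f' := fun s x => ContinuousLinearMap.toSpanSingleton ℝ (pdt (Icc a b ×ˢ Icc c d) f (s, x)))
    hcd.le hf.continuousOn (by
      have := (contDiffOn_pdt hab hcd hf).continuousOn
      exact (ContinuousLinearMap.toSpanSingletonCLE (𝕜 := ℝ) (E := ℝ)).continuous.comp_continuousOn this)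
    (by
      intro s hs x hx
      exact (hasDerivWithinAt_pdt hf hs hx).hasFDerivWithinAt) ht
  have h2 := h.hasDerivWithinAt
  have e : (∫ (s : ℝ) in c..d, ContinuousLinearMap.toSpanSingleton ℝ
      (pdt (Icc a b ×ˢ Icc c d) f (t, s))) (1 : ℝ) = ∫ x in c..d, pdt (Icc a b ×ˢ Icc c d) f (t, x) := by
    rw [ContinuousLinearMap.intervalIntegral_apply]
    · simp
    · apply ContinuousOn.intervalIntegrable
      rw [uIcc_of_le hcd.le]
      have := (contDiffOn_pdt hab hcd hf).continuousOn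
      have h3 : ContinuousOn (fun x => pdt (Icc a b ×ˢ Icc c d) f (t, x)) (Icc c d) :=
        this.comp (f := fun x : ℝ => ((t, x) : ℝ × ℝ)) (by fun_prop) (fun x hx => ⟨ht, hx⟩)
      exact (ContinuousLinearMap.toSpanSingletonCLE (𝕜 := ℝ) (E := ℝ)).continuous.comp_continuousOn h3
  rw [e] at h2
  exact h2

/-- Hadamard division: a smooth function on the closed box vanishing on `x = x₀` is `x - x₀` times
a smooth function. -/
theorem hadamard_div (hab : a < b) (hcd : c < d) {x₀ : ℝ} (hx₀ : x₀ ∈ Icc c d) {f : ℝ × ℝ → ℝ}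
    (hf : ContDiffOn ℝ ∞ f (Icc a b ×ˢ Icc c d)) (h0 : ∀ t ∈ Icc a b, f (t, x₀) = 0) :
    ∃ h : ℝ × ℝ → ℝ, ContDiffOn ℝ ∞ h (Icc a b ×ˢ Icc c d) ∧
      ∀ p ∈ Icc a b ×ˢ Icc c d, f p = (p.2 - x₀) * h p := by
  set K := Icc a b ×ˢ Icc c d with hK
  have hKc : IsCompact K := isCompact_Icc.prod isCompact_Icc
  have hKx : Convex ℝ K := (convex_Icc a b).prod (convex_Icc c d)
  have hmem : ∀ p ∈ K, ∀ s ∈ Icc (0 : ℝ) 1, (p.1, x₀ + s * (p.2 - x₀)) ∈ K := by
    intro p hp s hs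
    refine ⟨hp.1, ?_⟩
    have hx := hp.2
    obtain ⟨h1, h2⟩ := hx
    obtain ⟨h3, h4⟩ := hx₀
    obtain ⟨h5, h6⟩ := hs
    constructor
    · show c ≤ x₀ + s * (p.2 - x₀)
      nlinarith
    · show x₀ + s * (p.2 - x₀) ≤ d
      nlinarith
  have hg : ContDiffOn ℝ ∞ (fun q : (ℝ × ℝ) × ℝ => pdx K f (q.1.1, x₀ + q.2 * (q.1.2 - x₀)))
      (K ×ˢ Icc (0 : ℝ) 1) := by
    apply (contDiffOn_pdx hab hcd hf).comp (g := pdx K f)
      (f := fun q : (ℝ × ℝ) × ℝ => (q.1.1, x₀ + q.2 * (q.1.2 - x₀)))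
    · apply ContDiff.contDiffOn
      fun_prop
    · rintro ⟨p, s⟩ ⟨hp, hs⟩
      exact hmem p hp s hs
  refine ⟨fun p => ∫ s in (0:ℝ)..1, pdx K f (p.1, x₀ + s * (p.2 - x₀)),
    contDiffOn_integral hKc hKx (uniqueDiffOn_box hab hcd) zero_lt_one hg, ?_⟩
  rintro ⟨t, x⟩ ⟨ht, hx⟩
  replace ht : t ∈ Icc a b := ht
  replace hx : x ∈ Icc c d := hx
  show f (t, x) = (x - x₀) * ∫ s in (0:ℝ)..1, pdx K f (t, x₀ + s * (x - x₀))
  by_cases hxx : x = x₀
  · subst hxx
    simp [h0 t ht]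
  have hcont : ContinuousOn (fun s : ℝ => f (t, x₀ + s * (x - x₀))) (Icc 0 1) := by
    apply hf.continuousOn.comp (f := fun s : ℝ => ((t, x₀ + s * (x - x₀)) : ℝ × ℝ)) (by fun_prop)
    intro s hs
    exact hmem (t, x) ⟨ht, hx⟩ s hs
  have hcont' : ContinuousOn (fun s : ℝ => (x - x₀) * pdx K f (t, x₀ + s * (x - x₀))) (Icc 0 1) := by
    apply continuousOn_const.mul
    apply (contDiffOn_pdx hab hcd hf).continuousOn.comp
      (f := fun s : ℝ => ((t, x₀ + s * (x - x₀)) : ℝ × ℝ)) (by fun_prop)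
    intro s hs
    exact hmem (t, x) ⟨ht, hx⟩ s hs
  have hder : ∀ s ∈ Ioo (0 : ℝ) 1, HasDerivAt (fun s : ℝ => f (t, x₀ + s * (x - x₀)))
      ((x - x₀) * pdx K f (t, x₀ + s * (x - x₀))) s := by
    intro s hs
    have hin : x₀ + s * (x - x₀) ∈ Ioo c d := by
      obtain ⟨h1, h2⟩ := hx
      obtain ⟨h3, h4⟩ := hx₀
      obtain ⟨h5, h6⟩ := hs
      rcases lt_or_gt_of_ne hxx with h | h
      · constructor
        · nlinarith
        · nlinarith
      · constructor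
        · nlinarith
        · nlinarith
    have h1 := hasDerivAt_pdx hf ht hin
    have h2 : HasDerivAt (fun s : ℝ => x₀ + s * (x - x₀)) (x - x₀) s := by
      have := ((hasDerivAt_id s).mul_const (x - x₀)).const_add x₀
      simpa using this
    have h3 := h1.comp s h2
    rw [mul_comm]
    exact h3
  have hftc := intervalIntegral.integral_eq_sub_of_hasDerivAt_of_le zero_le_one hcont hder
    (by
      apply ContinuousOn.intervalIntegrable
      rw [uIcc_of_le zero_le_one]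
      exact hcont')
  simp only [one_mul, add_sub_cancel, zero_mul, add_zero] at hftc
  rw [h0 t ht, sub_zero, intervalIntegral.integral_const_mul] at hftc
  exact hftc.symm

end Box

end P264.Cal
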